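import Vale.Agent.P084.H406.Stab

/-!
Tingley's problem and its stability: surjective isometries of unit spheres extend linearly, so do
isometries with dense range (as embeddings), and the extension theorem is stable under small
perturbations, uniformly over all real normed spaces.
-/

namespace Vale.Agent.Results.P084.TingleyStability

open Metric

universe u v

theorem result :
    (∀ (X : Type u) [NormedAddCommGroup X] [NormedSpace ℝ X]
      (Y : Type v) [NormedAddCommGroup Y] [NormedSpace ℝ Y]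
      (f : sphere (0 : X) 1 → sphere (0 : Y) 1), Isometry f → Function.Surjective f →
      ∃ T : X ≃ₗᵢ[ℝ] Y, ∀ x : sphere (0 : X) 1, T (x : X) = (f x : Y)) ∧
    (∀ (X : Type u) [NormedAddCommGroup X] [NormedSpace ℝ X]
      (Y : Type v) [NormedAddCommGroup Y] [NormedSpace ℝ Y]
      (f : sphere (0 : X) 1 → sphere (0 : Y) 1), Isometry f → DenseRange f →
      ∃ T : X →ₗᵢ[ℝ] Y, DenseRange T ∧ ∀ x : sphere (0 : X) 1, T (x : X) = (f x : Y)) ∧
    (∀ (m : ℕ) (ε : ℝ), 0 < ε → ∃ δ : ℝ, 0 < δ ∧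
      ∀ (X : Type u) [NormedAddCommGroup X] [NormedSpace ℝ X]
        (Y : Type v) [NormedAddCommGroup Y] [NormedSpace ℝ Y]
        (f : sphere (0 : X) 1 → sphere (0 : Y) 1),
        (∀ x x' : sphere (0 : X) 1, |dist (f x) (f x') - dist x x'| ≤ δ) →
        (∀ y : sphere (0 : Y) 1, ∃ x : sphere (0 : X) 1, dist (f x) y ≤ δ) →
        ∀ (x : Fin m → sphere (0 : X) 1) (a : Fin m → ℝ),
          |‖∑ i, a i • (f (x i) : Y)‖ - ‖∑ i, a i • (x i : X)‖| ≤ ε * ∑ i, |a i|) :=
  ⟨fun _ _ _ _ _ _ f hf hs => Vale.Agent.P084.mazurUlam f hf hs,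
    fun _ _ _ _ _ _ f hf hd => Vale.Agent.P084.H406.dense_range f hf hd,
    fun m ε hε => Vale.Agent.P084.H406.stability m ε hε⟩

end Vale.Agent.Results.P084.TingleyStability
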