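import Vale.Agent.P084.H83.Wigner

/-!
Tingley's problem, its Wigner form (norms of sums and differences are preserved up to order), and
the stability of the Wigner form.
-/

open Metric

namespace Vale.Agent.P084.WignerTingley

universe u v

section

variable {X : Type u} [NormedAddCommGroup X] [NormedSpace ℝ X]
  {Y : Type v} [NormedAddCommGroup Y] [NormedSpace ℝ Y]

/-- The map `f` between unit spheres preserves the norms of the sum and of the difference of any
two points, up to the order of these two numbers. -/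
def PhaseIsometry (f : sphere (0 : X) 1 → sphere (0 : Y) 1) : Prop :=
  ∀ x x' : sphere (0 : X) 1, ({‖(f x : Y) + f x'‖, ‖(f x : Y) - f x'‖} : Set ℝ) =
    {‖(x : X) + x'‖, ‖(x : X) - x'‖}

/-- The smaller and the larger of the norms of the sum and of the difference of any two points are
preserved up to the error `δ`, and every point of the unit sphere of `Y` has distance at most `δ`
from some `f x` or `-f x`. -/
def AlmostPhaseIsometry (δ : ℝ) (f : sphere (0 : X) 1 → sphere (0 : Y) 1) : Prop :=
  (∀ x x' : sphere (0 : X) 1,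
    |min ‖(f x : Y) - f x'‖ ‖(f x : Y) + f x'‖ - min ‖(x : X) - x'‖ ‖(x : X) + x'‖| ≤ δ ∧
    |max ‖(f x : Y) - f x'‖ ‖(f x : Y) + f x'‖ - max ‖(x : X) - x'‖ ‖(x : X) + x'‖| ≤ δ) ∧
  ∀ y : sphere (0 : Y) 1, ∃ x : sphere (0 : X) 1, min ‖(f x : Y) - y‖ ‖(f x : Y) + y‖ ≤ δ

/-- On every `m` points the map `f` is, up to signs, almost the restriction of a linear
isometry. -/
def AlmostLinear (m : ℕ) (ε : ℝ) (f : sphere (0 : X) 1 → sphere (0 : Y) 1) : Prop :=
  ∀ x : Fin m → sphere (0 : X) 1, ∃ e : Fin m → ℝ, (∀ i, e i = 1 ∨ e i = -1) ∧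
    ∀ a : Fin m → ℝ,
      |‖∑ i, (a i * e i) • (f (x i) : Y)‖ - ‖∑ i, a i • (x i : X)‖| ≤ ε * ∑ i, |a i|

end

end Vale.Agent.P084.WignerTingley

namespace Vale.Agent.Results.P084.WignerTingley

open Vale.Agent.P084.WignerTingley Vale.Agent.P084.H83

universe u v

/-- (1) Every surjective isometry between the unit spheres of two real normed spaces is the
restriction of a linear isometry.
(2) Every map between the unit spheres of two real normed spaces which preserves the norms of the
sum and the difference of any two points, up to the order of these two numbers, is up to signs the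
restriction of a linear isometry: onto, if the map is onto up to signs, and with dense range, if
the map has dense range up to signs.
(3) The second statement is stable under small perturbations, uniformly over all real normed
spaces. -/
theorem result :
    (∀ (X : Type u) [NormedAddCommGroup X] [NormedSpace ℝ X]
      (Y : Type v) [NormedAddCommGroup Y] [NormedSpace ℝ Y]
      (f : sphere (0 : X) 1 → sphere (0 : Y) 1), Isometry f → Function.Surjective f →
      ∃ T : X ≃ₗᵢ[ℝ] Y, ∀ x : sphere (0 : X) 1, T (x : X) = (f x : Y)) ∧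
    (∀ (X : Type u) [NormedAddCommGroup X] [NormedSpace ℝ X]
      (Y : Type v) [NormedAddCommGroup Y] [NormedSpace ℝ Y]
      (f : sphere (0 : X) 1 → sphere (0 : Y) 1), PhaseIsometry f →
      ((∀ y : sphere (0 : Y) 1, ∃ x : sphere (0 : X) 1, f x = y ∨ f x = -y) →
        ∃ T : X ≃ₗᵢ[ℝ] Y, ∀ x : sphere (0 : X) 1, (f x : Y) = T x ∨ (f x : Y) = -T x) ∧
      (Dense (Set.range f ∪ Set.range fun x => -f x) →
        ∃ T : X →ₗᵢ[ℝ] Y, DenseRange T ∧
          ∀ x : sphere (0 : X) 1, (f x : Y) = T x ∨ (f x : Y) = -T x)) ∧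
    (∀ (m : ℕ) (ε : ℝ), 0 < ε → ∃ δ : ℝ, 0 < δ ∧
      ∀ (X : Type u) [NormedAddCommGroup X] [NormedSpace ℝ X]
        (Y : Type v) [NormedAddCommGroup Y] [NormedSpace ℝ Y]
        (f : sphere (0 : X) 1 → sphere (0 : Y) 1),
        AlmostPhaseIsometry δ f → AlmostLinear m ε f) := by
  refine ⟨fun _ _ _ _ _ _ f hf hs => Vale.Agent.P084.mazurUlam f hf hs,
    fun X _ _ Y _ _ f hf => ⟨fun hs => wigner_surj (ph_of_pair hf) hs,
      fun hd => wigner (ph_of_pair hf) fun y ε hε => ?_⟩,
    fun m ε hε => ?_⟩
  · obtain ⟨z, hz, hyz⟩ := Metric.dense_iff.mp hd y ε hε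
    rw [mem_ball] at hz
    rcases hyz with ⟨x, rfl⟩ | ⟨x, rfl⟩
    · refine ⟨x, Or.inl ?_⟩
      change dist (f x : Y) (y : Y) < ε at hz
      rwa [dist_eq_norm] at hz
    · refine ⟨x, Or.inr ?_⟩
      change dist (-(f x : Y)) (y : Y) < ε at hz
      rw [dist_eq_norm, ← norm_neg] at hz
      have : -(-(f x : Y) - y) = f x + y := by abel
      rwa [this] at hz
  · obtain ⟨δ, hδ, h⟩ := stability_ph.{u, v} m ε hε
    exact ⟨δ, hδ, fun X _ _ Y _ _ f hf => h X Y f (fun x y => (hf.1 x y).1)
      (fun x y => (hf.1 x y).2) hf.2⟩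

end Vale.Agent.Results.P084.WignerTingley
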